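import Vale.Agent.P158.Final

namespace Vale.Agent.Results.P158.NoBigeo
open MeasureTheory ProbabilityTheory Vale.Agent.P158

/-- Planar first-passage percolation with independent edge weights of a common atomless law
on the nonnegative reals has almost surely no bigeodesic. -/
theorem result {Ω : Type*} [MeasurableSpace Ω] (P : Measure Ω) [IsProbabilityMeasure P]
    (μ : Measure ℝ) [IsProbabilityMeasure μ] (noAtoms : ∀ x, μ {x} = 0)
    (nonneg : μ (Set.Iio 0) = 0)
    (t : Sym2 (ℤ × ℤ) → Ω → ℝ) (meas : ∀ e ∈ G.edgeSet, AEMeasurable (t e) P)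
    (indep : iIndepFun (fun e : G.edgeSet => t e) P)
    (law : ∀ e ∈ G.edgeSet, P.map (t e) = μ) :
    ∀ᵐ ω ∂P, ¬ ∃ v : ℤ → ℤ × ℤ, IsBigeodesic (fun e => t e ω) v :=
  main P μ noAtoms nonneg t meas indep law

end Vale.Agent.Results.P158.NoBigeo
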